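import Vale.Agent.P260U2.Main
import Vale.Agent.P260Z.Main

/-!
# P260: the Borel conjecture fails in dimension four, with asphericity as in the problem text
-/

namespace Vale.Agent.Results.P260.AAUniversalCover

open Vale.Agent.P260U2 ContinuousMap

theorem result :
    (¬ ∀ (M N : Type) [TopologicalSpace M] [TopologicalSpace N], IsClosedFourManifold M →
      IsClosedFourManifold N → Aspherical M → Aspherical N →
      Nonempty (HomotopyEquiv M N) → Nonempty (M ≃ₜ N)) ∧
    (¬ ∀ (M N : Type) [TopologicalSpace M] [TopologicalSpace N], IsClosedFourManifold M →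
      IsClosedFourManifold N → Aspherical M → Aspherical N →
      ∀ f : HomotopyEquiv M N, ∃ h : M ≃ₜ N, f.toFun.Homotopic (h : C(M, N))) ∧
    ∃ (M N : Type) (_ : TopologicalSpace M) (_ : TopologicalSpace N),
      (IsClosedFourManifold M ∧ Aspherical M ∧
        ∀ n ≥ 2, ∀ x, Subsingleton (HomotopyGroup.Pi n M x)) ∧
      (IsClosedFourManifold N ∧ Aspherical N ∧
        ∀ n ≥ 2, ∀ y, Subsingleton (HomotopyGroup.Pi n N y)) ∧
      (∀ x y, Nonempty (FundamentalGroup M x ≃* FundamentalGroup N y)) ∧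
      Nonempty (HomotopyEquiv M N) ∧ IsEmpty (M ≃ₜ N) := by
  obtain ⟨M, N, a, b, c, d, h1, h2, h3, h4, h5, h6, h7, h8, ⟨f⟩, h10⟩ := P260Z.counter
  obtain ⟨hM, -⟩ := pack (M := M) h7
  obtain ⟨hN, hN'⟩ := pack (M := N) h8
  refine ⟨fun H => ?_, fun H => ?_, M, N, a, b, hM, hN, pi_one f, ⟨f⟩, h10⟩
  · obtain ⟨e⟩ := H M N hM.1 hN.1 hM.2.1 hN.2.1 ⟨f⟩
    exact h10.false e
  · obtain ⟨e, -⟩ := H M N hM.1 hN.1 hM.2.1 hN.2.1 f
    exact h10.false e

end Vale.Agent.Results.P260.AAUniversalCover
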